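import Vale.Agent.P352.HM.H228.I

/-!
# P352 HM: block E, the bound in the strip from the identity on the lower boundary
-/

noncomputable section

open MeasureTheory Filter Topology Asymptotics

namespace Vale.Agent.P352.HM.H228

open Vale.Agent.P352.HM
open GF (Ix V Fn Fld Theory IsLor bas eta o sim)

theorem gg_swap (m : ℝ) (z : ℂ) (p : ℝ × ℝ) : gg m z p.swap = gg m z p := by
  unfold gg
  simp only [Prod.fst_swap, Prod.snd_swap]
  ring

theorem dg_swap (m : ℝ) (k : ℝ × ℝ → ℂ) (z : ℂ) : dg m (fun p => k p.swap) z = dg m k z := by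
  unfold dg
  have h1 : (fun p : ℝ × ℝ => gg m z p * k p.swap) =
      fun p => (fun q : ℝ × ℝ => gg m z q * k q) p.swap := by
    funext p
    simp only [gg_swap]
  rw [h1]
  exact MeasureTheory.integral_prod_swap (μ := (volume : Measure ℝ)) (ν := (volume : Measure ℝ))
    (fun q : ℝ × ℝ => gg m z q * k q)

/-- kernels which depend on the difference only -/
theorem dg_real (m : ℝ) (k : ℝ × ℝ → ℂ) (hk : ∀ (p : ℝ × ℝ) (t : ℝ), k (p.1 + t, p.2 + t) = k p)
    (t : ℝ) : dg m k t = dg m k 0 := by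
  unfold dg
  have h1 : (fun p : ℝ × ℝ => gg m (t : ℂ) p * k p) =
      fun p => (fun q : ℝ × ℝ => gg m 0 q * k q) (p + (t, t)) := by
    funext p
    have h2 : k (p + (t, t)) = k p := hk p t
    simp only [h2]
    congr 1
    unfold gg
    simp only [Prod.fst_add, Prod.snd_add, add_zero, Complex.ofReal_add]
  rw [h1]
  exact integral_add_right_eq_self (fun q : ℝ × ℝ => gg m 0 q * k q) (t, t)

variable {D : Type*} [NormedAddCommGroup D] [InnerProductSpace ℂ D]

section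

variable {Q : Theory D} {N : Set (D → D)} {v : ℝ → D → D} {j k : D → D}

theorem nm_real (h : Modl Q N v j k) (m : ℝ) (x : D) (t : ℝ) :
    (dg m (fun p => inner ℂ (v p.1 x) (v p.2 x)) (t : ℂ)).re = nm m v x := by
  unfold nm
  rw [dg_real]
  intro p t
  rw [vshift h, vshift h]
  congr 2
  ring

end

/-- the bound of block E, from the identity on the lower boundary of the strip -/
theorem ebound (h1 : A1Stmt) (h2 : A2Stmt) (h5 : A5Stmt D)
    {Q : Theory D} {N M : Set (D → D)} {v u : ℝ → D → D} {j j' k k' : D → D} {V W : D → D} {m : ℝ}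
    (hm : 0 < m) (hN : Modl Q N v j k) (hM : Modl Q M u j' k')
    (hVW : ∀ x y, inner ℂ (V x) y = inner ℂ x (W y)) (hWV : ∀ x, W (V x) = x)
    (x y : D)
    (hid : ∀ t : ℝ, dg m (fun p => inner ℂ (u p.1 x) (V (v p.2 y))) ((t : ℂ) - Complex.I / 2) =
      dg m (fun p => inner ℂ (V (j (v p.2 y))) (j' (u p.1 x))) (t : ℂ))
    (z : ℂ) (hz1 : -(1 / 2) ≤ z.im) (hz2 : z.im ≤ 0) :
    ‖dg m (fun p => inner ℂ (u p.1 x) (V (v p.2 y))) z‖ ^ 2 ≤ nm m u x * nm m v y := by
  have hVi : ∀ a b, inner ℂ (V a) (V b) = inner ℂ a b := fun a b => by rw [hVW, hWV]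
  have hcu : Continuous fun t : ℝ => u t x := vcont hM x
  have hcv : Continuous fun t : ℝ => v t y := vcont hN y
  have hVc : ∀ {f : ℝ → D}, Continuous f → Continuous fun t => V (f t) := by
    intro f hf
    have hV : Isometry V := Isometry.of_dist_eq fun a b => by
      rw [dist_eq_norm, dist_eq_norm, nsub hVi]
    exact hV.continuous.comp hf
  have hjc : ∀ {Q : Theory D} {N : Set (D → D)} {v : ℝ → D → D} {j k : D → D},
      Modl Q N v j k → ∀ {f : ℝ → D}, Continuous f → Continuous fun t => j (f t) := by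
    intro Q N v j k h f hf
    have hj : Isometry j := Isometry.of_dist_eq fun a b => by
      rw [dist_eq_norm, dist_eq_norm]
      have e : j a - j b = j (a - b) := by
        have e1 := jadd h (a - b) b
        rw [sub_add_cancel] at e1
        rw [e1, add_sub_cancel_right]
      rw [e, jnrm h]
    exact hj.continuous.comp hf
  have hbu : ∃ C, ∀ τ : ℝ, ‖u τ x‖ ≤ C := ⟨‖x‖, fun τ => (nrm (hM.inn τ) x).le⟩
  have hbv : ∃ C, ∀ τ : ℝ, ‖V (v τ y)‖ ≤ C :=
    ⟨‖y‖, fun τ => by rw [nrm hVi, nrm (hN.inn τ) y]⟩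
  have hbu' : ∃ C, ∀ τ : ℝ, ‖j' (u τ x)‖ ≤ C :=
    ⟨‖x‖, fun τ => by rw [jnrm hM, nrm (hM.inn τ) x]⟩
  have hbv' : ∃ C, ∀ τ : ℝ, ‖V (j (v τ y))‖ ≤ C :=
    ⟨‖y‖, fun τ => by rw [nrm hVi, jnrm hN, nrm (hN.inn τ) y]⟩
  set K : ℝ × ℝ → ℂ := fun p => inner ℂ (u p.1 x) (V (v p.2 y)) with hK
  have hKg : Grw K 0 := by
    refine ⟨(hcu.comp continuous_fst).inner ((hVc hcv).comp continuous_snd), ‖x‖ * ‖y‖,
      fun p => ?_⟩
    rw [zero_mul, Real.exp_zero, mul_one, hK]
    refine (norm_inner_le_norm _ _).trans ?_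
    rw [nrm (hM.inn _), nrm hVi, nrm (hN.inn _)]
  -- the upper boundary
  have hup : ∀ t : ℝ, ‖dg m K (t : ℂ)‖ ^ 2 ≤ nm m u x * nm m v y := by
    intro t
    have h := (h5 (fun τ => u τ x) (fun τ => V (v τ y)) m t hm hcu (hVc hcv) hbu hbv).2.2
    have e1 : (fun p : ℝ × ℝ => (inner ℂ (V (v p.1 y)) (V (v p.2 y)) : ℂ)) =
        fun p => inner ℂ (v p.1 y) (v p.2 y) := by
      funext p; exact hVi _ _
    rw [e1, nm_real hM, nm_real hN] at h
    exact h
  -- the lower boundary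
  have hlo : ∀ t : ℝ, ‖dg m K ((t : ℂ) - Complex.I / 2)‖ ^ 2 ≤ nm m u x * nm m v y := by
    intro t
    have hcj : Continuous fun τ : ℝ => V (j (v τ y)) := hVc (hjc hN hcv)
    have hcj' : Continuous fun τ : ℝ => j' (u τ x) := hjc hM hcu
    have h := (h5 (fun τ => V (j (v τ y))) (fun τ => j' (u τ x)) m t hm hcj hcj' hbv' hbu').2.2
    have e1 : (fun p : ℝ × ℝ => (inner ℂ (V (j (v p.1 y))) (V (j (v p.2 y))) : ℂ)) =
        fun p => (fun q : ℝ × ℝ => inner ℂ (v q.1 y) (v q.2 y)) p.swap := by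
      funext p
      simp only [Prod.fst_swap, Prod.snd_swap]
      rw [hVi, hN.jinn]
    have e2 : (fun p : ℝ × ℝ => (inner ℂ (j' (u p.1 x)) (j' (u p.2 x)) : ℂ)) =
        fun p => (fun q : ℝ × ℝ => inner ℂ (u q.1 x) (u q.2 x)) p.swap := by
      funext p
      simp only [Prod.fst_swap, Prod.snd_swap]
      rw [hM.jinn]
    have e4 := dg_swap m (fun q : ℝ × ℝ => (inner ℂ (v q.1 y) (v q.2 y) : ℂ)) (t : ℂ)
    have e5 := dg_swap m (fun q : ℝ × ℝ => (inner ℂ (u q.1 x) (u q.2 x) : ℂ)) (t : ℂ)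
    have e6 := dg_swap m (fun q : ℝ × ℝ => (inner ℂ (V (j (v q.1 y))) (j' (u q.2 x)) : ℂ)) (t : ℂ)
    rw [e1, e2, e4, e5, nm_real hM, nm_real hN, mul_comm] at h
    rw [hid t]
    have e3 : (fun p : ℝ × ℝ => (inner ℂ (V (j (v p.2 y))) (j' (u p.1 x)) : ℂ)) =
        fun p => (fun q : ℝ × ℝ => (inner ℂ (V (j (v q.1 y))) (j' (u q.2 x)) : ℂ)) p.swap := rfl
    rw [e3, e6]
    exact h
  have hnn : 0 ≤ nm m u x * nm m v y := (sq_nonneg _).trans (hup 0)
  have hsq : ∀ {w : ℂ}, ‖w‖ ^ 2 ≤ nm m u x * nm m v y → ‖w‖ ≤ Real.sqrt (nm m u x * nm m v y) :=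
    fun {w} hw => by
      rw [← Real.sqrt_sq (norm_nonneg w)]
      exact Real.sqrt_le_sqrt hw
  obtain ⟨C, hC⟩ := h2 m K 0 hm le_rfl hKg
  have hC' : ∀ z : ℂ, |z.im| ≤ 1 → ‖dg m K z‖ ≤ C := fun z hz => by
    have := hC z hz
    rwa [mul_zero, zero_mul, Real.exp_zero, mul_one] at this
  have hpl := PhragmenLindelof.horizontal_strip (a := -(1 / 2)) (b := 0)
    (C := Real.sqrt (nm m u x * nm m v y)) (f := dg m K) (z := z)
    ((h1 m K 0 hm hKg).2.diffContOnCl) ?_ ?_ ?_ hz1 hz2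
  · calc ‖dg m K z‖ ^ 2 ≤ Real.sqrt (nm m u x * nm m v y) ^ 2 :=
          pow_le_pow_left₀ (norm_nonneg _) hpl 2
      _ = nm m u x * nm m v y := Real.sq_sqrt hnn
  · refine ⟨0, by positivity, 0, ?_⟩
    refine IsBigO.of_bound C ?_
    rw [eventually_inf_principal]
    refine Eventually.of_forall fun w hw => ?_
    simp only [zero_mul, Real.exp_zero, norm_one, mul_one]
    refine hC' w ?_
    rw [Set.mem_preimage, Set.mem_Ioo] at hw
    rw [abs_le]
    constructor <;> linarith [hw.1, hw.2]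
  · intro w hw
    have e : w = ((w.re : ℝ) : ℂ) - Complex.I / 2 := by
      apply Complex.ext
      · simp
      · rw [hw]; simp
    rw [e]
    exact hsq (hlo _)
  · intro w hw
    have e : w = ((w.re : ℝ) : ℂ) := by
      apply Complex.ext
      · simp
      · rw [hw]; simp
    rw [e]
    exact hsq (hup _)

end Vale.Agent.P352.HM.H228
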