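import Vale.Agent.P352.HM.H228.B

/-!
# P352 HM: block I, monotonicity of the modular Hamiltonians
-/

noncomputable section

open MeasureTheory Filter Topology Asymptotics

namespace Vale.Agent.P352.HM.H228

open Vale.Agent.P352.HM
open GF (Ix V Fn Fld Theory IsLor bas eta o sim)

/-- the Gaussian weight -/
def gw (m : ℝ) (p : ℝ × ℝ) : ℝ :=
  (m / Real.pi * Real.exp (-m * p.1 ^ 2)) * Real.exp (-m * p.2 ^ 2)

theorem gg_norm {m : ℝ} (hm : 0 < m) (p : ℝ × ℝ) : ‖gg m 0 p‖ = gw m p := by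
  unfold gg gw
  rw [norm_mul, norm_mul, Complex.norm_real, Complex.norm_exp, Complex.norm_exp,
    Real.norm_of_nonneg (div_nonneg hm.le Real.pi_pos.le)]
  congr 2
  · congr 2
    rw [add_zero, ← Complex.ofReal_pow, ← Complex.ofReal_neg, ← Complex.ofReal_mul,
      Complex.ofReal_re]
  · rw [add_zero, ← Complex.ofReal_pow, ← Complex.ofReal_neg, ← Complex.ofReal_mul,
      Complex.ofReal_re]

theorem gw_int {m : ℝ} (hm : 0 < m) : Integrable (gw m) := by
  have h1 := (integrable_exp_neg_mul_sq hm).const_mul (m / Real.pi)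
  exact h1.mul_prod (integrable_exp_neg_mul_sq hm)

theorem gw_one {m : ℝ} (hm : 0 < m) : ∫ p, gw m p = 1 := by
  have h1 : ∫ p, gw m p = (∫ x : ℝ, m / Real.pi * Real.exp (-m * x ^ 2)) *
      ∫ y : ℝ, Real.exp (-m * y ^ 2) :=
    integral_prod_mul (μ := volume) (ν := volume) (fun x : ℝ => m / Real.pi * Real.exp (-m * x ^ 2))
      (fun y : ℝ => Real.exp (-m * y ^ 2))
  rw [h1, integral_const_mul, integral_gaussian, mul_assoc,
    Real.mul_self_sqrt (div_nonneg Real.pi_pos.le hm.le)]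
  have := Real.pi_ne_zero
  field_simp

theorem dg_zero_le {m : ℝ} (hm : 0 < m) {k : ℝ × ℝ → ℂ} {C : ℝ} (hk : ∀ p, ‖k p‖ ≤ C) :
    ‖dg m k 0‖ ≤ C := by
  have h1 : ‖dg m k 0‖ ≤ ∫ p, C * gw m p := by
    refine norm_integral_le_of_norm_le ((gw_int hm).const_mul C) (Eventually.of_forall fun p => ?_)
    rw [norm_mul, gg_norm hm, mul_comm]
    refine mul_le_mul_of_nonneg_right (hk p) ?_
    rw [← gg_norm hm]
    exact norm_nonneg _
  rwa [integral_const_mul, gw_one hm, mul_one] at h1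

variable {D : Type*} [NormedAddCommGroup D] [InnerProductSpace ℂ D]

theorem nm_le {Q : Theory D} {N : Set (D → D)} {v : ℝ → D → D} {j k : D → D}
    (h : Modl Q N v j k) {m : ℝ} (hm : 0 < m) (x : D) : |nm m v x| ≤ ‖x‖ ^ 2 := by
  refine (Complex.abs_re_le_norm _).trans (dg_zero_le hm fun p => ?_)
  refine (norm_inner_le_norm _ _).trans ?_
  rw [nrm (h.inn _), nrm (h.inn _), sq]

/-- block I -/
theorem iblock (hE : EStmt D) (h4 : A4Stmt) : IStmt D := by
  intro Q N M v u j j' k k' hN hM hNM x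
  set K : ℝ × ℝ → ℂ := fun p => inner ℂ (u p.1 x) (v p.2 x) with hK
  have hu0 : u 0 x = x := v0 hM x
  have hv0 : v 0 x = x := v0 hN x
  have hcK : Continuous K := by
    have h1 : Continuous fun p : ℝ × ℝ => u p.1 x := (vcont hM x).comp continuous_fst
    have h2 : Continuous fun p : ℝ × ℝ => v p.2 x := (vcont hN x).comp continuous_snd
    exact h1.inner h2
  have hb : ∀ p : ℝ × ℝ, ‖K p - inner ℂ x x‖ ≤ (‖x‖ * (‖k x‖ + ‖k' x‖)) * (|p.1| + |p.2|) := by
    intro p
    have e : K p - inner ℂ x x = inner ℂ (u p.1 x - x) (v p.2 x) + inner ℂ x (v p.2 x - x) := by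
      rw [inner_sub_left, inner_sub_right, hK]; ring
    rw [e]
    have h1 : ‖(inner ℂ (u p.1 x - x) (v p.2 x) : ℂ)‖ ≤ ‖k' x‖ * |p.1| * ‖x‖ := by
      refine (norm_inner_le_norm _ _).trans ?_
      rw [nrm (hN.inn _)]
      exact mul_le_mul_of_nonneg_right (vlip hM x p.1) (norm_nonneg _)
    have h2 : ‖(inner ℂ x (v p.2 x - x) : ℂ)‖ ≤ ‖x‖ * (‖k x‖ * |p.2|) := by
      refine (norm_inner_le_norm _ _).trans ?_
      exact mul_le_mul_of_nonneg_left (vlip hN x p.2) (norm_nonneg _)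
    have h3 := norm_add_le (inner ℂ (u p.1 x - x) (v p.2 x) : ℂ) (inner ℂ x (v p.2 x - x))
    have h5 := mul_nonneg (mul_nonneg (norm_nonneg x) (norm_nonneg (k x))) (abs_nonneg p.1)
    have h6 := mul_nonneg (mul_nonneg (norm_nonneg x) (norm_nonneg (k' x))) (abs_nonneg p.2)
    nlinarith [h1, h2, h3, h5, h6]
  have ho : (fun p : ℝ × ℝ => K p - inner ℂ x x - (-Complex.I * inner ℂ (k' x) x) * (p.1 : ℂ) -
      (Complex.I * inner ℂ x (k x)) * (p.2 : ℂ)) =o[𝓝 0] fun p => p := by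
    have d1 : HasFDerivAt (fun p : ℝ × ℝ => u p.1 x)
        ((ContinuousLinearMap.toSpanSingleton ℝ (Complex.I • k' x)).comp
          (ContinuousLinearMap.fst ℝ ℝ ℝ)) (0 : ℝ × ℝ) :=
      HasFDerivAt.comp (g := fun t : ℝ => u t x) (f := Prod.fst) (0 : ℝ × ℝ)
        (hM.der x).hasFDerivAt hasFDerivAt_fst
    have d2 : HasFDerivAt (fun p : ℝ × ℝ => v p.2 x)
        ((ContinuousLinearMap.toSpanSingleton ℝ (Complex.I • k x)).comp
          (ContinuousLinearMap.snd ℝ ℝ ℝ)) (0 : ℝ × ℝ) :=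
      HasFDerivAt.comp (g := fun t : ℝ => v t x) (f := Prod.snd) (0 : ℝ × ℝ)
        (hN.der x).hasFDerivAt hasFDerivAt_snd
    have d3 := (HasFDerivAt.inner ℂ d1 d2).isLittleO
    have e2 : (fun p : ℝ × ℝ => p - 0) = fun p => p := by
      funext p; exact sub_zero p
    rw [e2] at d3
    refine d3.congr_left fun p => ?_
    simp only [Prod.fst_zero, Prod.snd_zero, hu0, hv0, sub_zero, ContinuousLinearMap.comp_apply,
      ContinuousLinearMap.prod_apply, fderivInnerCLM_apply, ContinuousLinearMap.coe_fst',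
      ContinuousLinearMap.coe_snd', ContinuousLinearMap.toSpanSingleton_apply, hK]
    have e3 : ∀ (r : ℝ) (y : D), r • y = (r : ℂ) • y := fun r y => rfl
    rw [e3, e3, inner_smul_left, inner_smul_left, inner_smul_right, inner_smul_right,
      Complex.conj_ofReal, Complex.conj_I]
    ring
  have hlim := h4 K (-Complex.I * inner ℂ (k' x) x) (Complex.I * inner ℂ x (k x)) (inner ℂ x x)
    (‖x‖ * (‖k x‖ + ‖k' x‖)) 1 hcK hb ho
  have hE' : ∀ m : ℝ, 0 < m → ∀ z : ℂ, -(1 / 2) ≤ z.im → z.im ≤ 0 →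
      ‖dg m K z‖ ^ 2 ≤ nm m u x * nm m v x := by
    intro m hm z hz1 hz2
    exact (hE Q N M v u j j' k k' id id m hm hN hM (fun _ _ => rfl) (fun _ => rfl) (fun _ => rfl)
      rfl (fun X hX => hNM hX)).2 x x z hz1 hz2
  have hre : ∀ m : ℝ, 4 ≤ m → ((((Real.sqrt m : ℝ) : ℂ) *
      (dg m K (-(Complex.I * ((1 / Real.sqrt m : ℝ) : ℂ))) - inner ℂ x x))).re ≤ 0 := by
    intro m hm4
    have hm : 0 < m := by linarith
    have hs2 : 2 ≤ Real.sqrt m := by
      rw [show (2 : ℝ) = Real.sqrt 4 by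
        rw [show (4 : ℝ) = 2 ^ 2 by norm_num, Real.sqrt_sq (by norm_num)]]
      exact Real.sqrt_le_sqrt hm4
    have hs : 0 < Real.sqrt m := by linarith
    set z : ℂ := -(Complex.I * ((1 / Real.sqrt m : ℝ) : ℂ)) with hz
    have hzi : z.im = -(1 / Real.sqrt m) := by
      rw [hz, Complex.neg_im, Complex.mul_im, Complex.I_re, Complex.I_im, Complex.ofReal_re,
        Complex.ofReal_im]
      ring
    have h1 : 1 / Real.sqrt m ≤ 1 / 2 := one_div_le_one_div_of_le (by norm_num) hs2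
    have h2 := hE' m hm z (by rw [hzi]; linarith) (by rw [hzi]; linarith [one_div_pos.mpr hs])
    have h3 : nm m u x * nm m v x ≤ (‖x‖ ^ 2) ^ 2 := by
      refine (le_abs_self _).trans ?_
      rw [abs_mul, sq]
      exact mul_le_mul (nm_le hM hm x) (nm_le hN hm x) (abs_nonneg _) (sq_nonneg _)
    have h5 : ‖dg m K z‖ ≤ ‖x‖ ^ 2 :=
      (sq_le_sq₀ (norm_nonneg _) (sq_nonneg _)).mp (h2.trans h3)
    have h6 : (dg m K z).re ≤ ‖x‖ ^ 2 := (Complex.re_le_norm _).trans h5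
    have h7 : (inner ℂ x x : ℂ).re = ‖x‖ ^ 2 := by
      rw [← inner_self_eq_norm_sq (𝕜 := ℂ)]; rfl
    rw [Complex.re_ofReal_mul, Complex.sub_re, h7]
    exact mul_nonpos_of_nonneg_of_nonpos hs.le (by linarith)
  have h8 := (Complex.continuous_re.tendsto _).comp hlim
  have h9 := le_of_tendsto h8 ((eventually_ge_atTop (4 : ℝ)).mono fun m hm => hre m hm)
  have h10 : Complex.I * ((1 : ℝ) : ℂ) * (-Complex.I * inner ℂ (k' x) x +
      Complex.I * inner ℂ x (k x)) = inner ℂ (k' x) x - inner ℂ x (k x) := by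
    have := Complex.I_mul_I
    push_cast
    linear_combination (-(inner ℂ (k' x) x : ℂ) + inner ℂ x (k x)) * this
  rw [h10, Complex.sub_re] at h9
  have h11 : (inner ℂ (k' x) x : ℂ).re = (inner ℂ x (k' x) : ℂ).re := by
    rw [← inner_conj_symm, Complex.conj_re]
  linarith

end Vale.Agent.P352.HM.H228
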