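import Vale.Agent.P352.HM.Lit

/-!
# P352 HM: elementary properties of modular objects
-/

noncomputable section

open MeasureTheory Filter Topology

namespace Vale.Agent.P352.HM.H228

open Vale.Agent.P352.HM
open GF (Ix V Fn Fld Theory IsLor bas eta o sim)

variable {D : Type*} [NormedAddCommGroup D] [InnerProductSpace ℂ D]

/-- maps that preserve inner products preserve distances -/
theorem nsub {f : D → D} (h : ∀ x y, inner ℂ (f x) (f y) = inner ℂ x y) (x y : D) :
    ‖f x - f y‖ = ‖x - y‖ := by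
  have e : ∀ a b : D, ‖a - b‖ ^ 2 = (inner ℂ a a - inner ℂ a b - inner ℂ b a + inner ℂ b b).re := by
    intro a b
    have h1 : (inner ℂ (a - b) (a - b) : ℂ) = inner ℂ a a - inner ℂ a b - inner ℂ b a +
        inner ℂ b b := by
      rw [inner_sub_left, inner_sub_right, inner_sub_right]; ring
    rw [← h1, ← inner_self_eq_norm_sq (𝕜 := ℂ)]
    rfl
  have h2 : ‖f x - f y‖ ^ 2 = ‖x - y‖ ^ 2 := by
    rw [e, e, h, h, h, h]
  exact (sq_eq_sq₀ (norm_nonneg _) (norm_nonneg _)).mp h2

theorem nrm {f : D → D} (h : ∀ x y, inner ℂ (f x) (f y) = inner ℂ x y) (x : D) :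
    ‖f x‖ = ‖x‖ := by
  have h2 : ‖f x‖ ^ 2 = ‖x‖ ^ 2 := by
    rw [← inner_self_eq_norm_sq (𝕜 := ℂ), ← inner_self_eq_norm_sq (𝕜 := ℂ), h]
  exact (sq_eq_sq₀ (norm_nonneg _) (norm_nonneg _)).mp h2

section

variable {Q : Theory D} {N : Set (D → D)} {v : ℝ → D → D} {j k : D → D} (h : Modl Q N v j k)

include h

theorem v0 (x : D) : v 0 x = x := by
  have h1 : v 0 (v 0 x) = v 0 x := by
    have := h.add 0 0 x
    rw [add_zero] at this
    exact this.symm
  have h2 := nsub (h.inn 0) (v 0 x) x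
  rw [h1, sub_self, norm_zero] at h2
  exact sub_eq_zero.mp (norm_eq_zero.mp h2.symm)

theorem vneg (t : ℝ) (x : D) : v t (v (-t) x) = x := by
  rw [← h.add, add_neg_cancel, v0 h]

theorem vneg' (t : ℝ) (x : D) : v (-t) (v t x) = x := by
  rw [← h.add, neg_add_cancel, v0 h]

theorem vadj (t : ℝ) (x y : D) : inner ℂ (v t x) y = inner ℂ x (v (-t) y) := by
  rw [← h.inn t x (v (-t) y), vneg h]

theorem vshift (s t : ℝ) (x y : D) : inner ℂ (v s x) (v t y) = inner ℂ x (v (t - s) y) := by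
  rw [vadj h, ← h.add]
  congr 2
  ring

theorem vadd (t : ℝ) (x y : D) : v t (x + y) = v t x + v t y := by
  refine ext_inner_right ℂ fun z => ?_
  rw [vadj h, inner_add_left, inner_add_left, vadj h, vadj h]

theorem vsmul (t : ℝ) (c : ℂ) (x : D) : v t (c • x) = c • v t x := by
  refine ext_inner_right ℂ fun z => ?_
  rw [vadj h, inner_smul_left, inner_smul_left, vadj h]

theorem vsub (t : ℝ) (x y : D) : v t (x - y) = v t x - v t y := by
  refine ext_inner_right ℂ fun z => ?_
  rw [vadj h, inner_sub_left, inner_sub_left, vadj h, vadj h]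

theorem vcont (x : D) : Continuous fun t : ℝ => v t x := by
  rw [continuous_iff_continuousAt]
  intro t
  have h1 : ContinuousAt (fun s : ℝ => v s x) 0 := (h.der x).continuousAt
  rw [Metric.continuousAt_iff] at h1 ⊢
  intro e he
  obtain ⟨d, hd, h2⟩ := h1 e he
  refine ⟨d, hd, fun s hs => ?_⟩
  have h3 := @h2 (s - t) (by rwa [Real.dist_eq, sub_zero, ← Real.dist_eq])
  have h4 : v s x = v t (v (s - t) x) := by rw [← h.add]; congr 1; ring
  rw [dist_eq_norm, v0 h] at h3
  rw [dist_eq_norm, h4, nsub (h.inn t)]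
  exact h3

theorem vder (x : D) (t : ℝ) : HasDerivAt (fun t : ℝ => v t x) (v t (Complex.I • k x)) t := by
  have h1 := h.der x
  rw [hasDerivAt_iff_isLittleO] at h1 ⊢
  rw [Asymptotics.isLittleO_iff] at h1 ⊢
  intro c hc
  have h2 := h1 hc
  have h3 : Tendsto (fun s : ℝ => s - t) (𝓝 t) (𝓝 0) := by
    have : Continuous fun s : ℝ => s - t := by fun_prop
    simpa using this.tendsto t
  filter_upwards [h3.eventually h2] with s hs
  have h4 : v s x = v t (v (s - t) x) := by rw [← h.add]; congr 1; ring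
  have h5 : v s x - v t x - (s - t) • v t (Complex.I • k x) =
      v t (v (s - t) x - x - ((s - t : ℝ) : ℂ) • (Complex.I • k x)) := by
    rw [vsub h, vsub h, ← h4, vsmul h t ((s - t : ℝ) : ℂ)]
    congr 1
  rw [h5, nrm (h.inn t)]
  rw [v0 h, sub_zero] at hs
  exact hs

theorem vlip (x : D) (t : ℝ) : ‖v t x - x‖ ≤ ‖k x‖ * |t| := by
  have h1 : ∀ s ∈ (Set.univ : Set ℝ), HasDerivWithinAt (fun t : ℝ => v t x)
      (v s (Complex.I • k x)) Set.univ s := fun s _ => (vder h x s).hasDerivWithinAt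
  have h2 := (convex_univ).norm_image_sub_le_of_norm_hasDerivWithin_le (C := ‖k x‖) h1
    (fun s _ => by rw [nrm (h.inn s), norm_smul, Complex.norm_I, one_mul])
    (Set.mem_univ (0 : ℝ)) (Set.mem_univ t)
  simpa [v0 h] using h2

theorem jnrm (x : D) : ‖j x‖ = ‖x‖ := by
  have h2 : ‖j x‖ ^ 2 = ‖x‖ ^ 2 := by
    rw [← inner_self_eq_norm_sq (𝕜 := ℂ), ← inner_self_eq_norm_sq (𝕜 := ℂ), h.jinn]
  exact (sq_eq_sq₀ (norm_nonneg _) (norm_nonneg _)).mp h2

theorem jadj (x y : D) : inner ℂ (j x) y = inner ℂ (j y) x := by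
  rw [← h.jinn x (j y), h.jj]

theorem jadj' (x y : D) : inner ℂ x (j y) = inner ℂ y (j x) := by
  rw [← h.jinn (j x) y, h.jj]

theorem jadd (x y : D) : j (x + y) = j x + j y := by
  refine ext_inner_right ℂ fun z => ?_
  rw [jadj h (x + y) z, inner_add_left, inner_add_right, jadj h x z, jadj h y z]

theorem jsmul (c : ℂ) (x : D) : j (c • x) = (starRingEnd ℂ c) • j x := by
  refine ext_inner_right ℂ fun z => ?_
  rw [jadj h (c • x) z, inner_smul_left, inner_smul_right, Complex.conj_conj, jadj h x z]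

end

end Vale.Agent.P352.HM.H228
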